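import Vale.Agent.P251.S.ModP
import Vale.Agent.P251.S.TowerCouple

/-!
# P236, block ORD: the action of the symmetric group on a tensor cube

* `swl`, `swr`, `cy3`: the two transpositions and the cyclic permutation of `X ⊗ Y ⊗ Z`;
* `cyc M`, `nrm M = 1 + cyc + cyc ^ 2` on `M ⊗ M ⊗ M`;
* `Br Y s`: the braiding of `Y ⊗ Y` is `s`; `Sph Y n`: `Y ≅ 𝟙⟦n⟧`.
-/

open CategoryTheory MonoidalCategory Limits Pretriangulated BraidedCategory

set_option linter.unusedSectionVars false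

universe v u

namespace Vale.Agent.P236R

open Vale.Agent.P251.T Vale.Agent.P251.S

section Perm

variable {T : Type u} [Category.{v} T] [MonoidalCategory T] [SymmetricCategory T]

/-- The transposition of the first two factors. -/
def swl (X Y Z : T) : X ⊗ Y ⊗ Z ⟶ Y ⊗ X ⊗ Z :=
  (α_ X Y Z).inv ≫ ((β_ X Y).hom ▷ Z) ≫ (α_ Y X Z).hom

/-- The transposition of the last two factors. -/
def swr (X Y Z : T) : X ⊗ Y ⊗ Z ⟶ X ⊗ Z ⊗ Y := X ◁ (β_ Y Z).hom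

/-- The cyclic permutation of three factors. -/
def cy3 (X Y Z : T) : X ⊗ Y ⊗ Z ⟶ Y ⊗ Z ⊗ X := (β_ X (Y ⊗ Z)).hom ≫ (α_ Y Z X).hom

/-- The cyclic permutation of a cube. -/
def cyc (M : T) : M ⊗ M ⊗ M ⟶ M ⊗ M ⊗ M := (β_ M (M ⊗ M)).hom ≫ (α_ M M M).hom

lemma cyc_eq_cy3 (M : T) : cyc M = cy3 M M M := rfl

lemma cy3_eq (X Y Z : T) : cy3 X Y Z = swl X Y Z ≫ swr Y X Z := by
  simp [cy3, swl, swr]

@[reassoc]
lemma swl_swl (X Y Z : T) : swl X Y Z ≫ swl Y X Z = 𝟙 _ := by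
  simp [swl, ← comp_whiskerRight_assoc]

@[reassoc]
lemma swr_swr (X Y Z : T) : swr X Y Z ≫ swr X Z Y = 𝟙 _ := by
  rw [swr, swr, ← MonoidalCategory.whiskerLeft_comp, SymmetricCategory.symmetry,
    MonoidalCategory.whiskerLeft_id]

@[reassoc]
lemma braid (X Y Z : T) :
    swl X Y Z ≫ swr Y X Z ≫ swl Y Z X = swr X Y Z ≫ swl X Z Y ≫ swr Z X Y := by
  simpa [swl, swr] using yang_baxter X Y Z

@[reassoc]
lemma swr_nat {X Y Z X' Y' Z' : T} (f : X ⟶ X') (g : Y ⟶ Y') (h : Z ⟶ Z') :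
    (f ⊗ₘ g ⊗ₘ h) ≫ swr X' Y' Z' = swr X Y Z ≫ (f ⊗ₘ h ⊗ₘ g) := by
  rw [swr, swr, ← id_tensorHom, ← id_tensorHom, tensorHom_comp_tensorHom,
    tensorHom_comp_tensorHom, braiding_naturality, Category.comp_id, Category.id_comp]

@[reassoc]
lemma cy3_nat {X Y Z X' Y' Z' : T} (f : X ⟶ X') (g : Y ⟶ Y') (h : Z ⟶ Z') :
    (f ⊗ₘ g ⊗ₘ h) ≫ cy3 X' Y' Z' = cy3 X Y Z ≫ (g ⊗ₘ h ⊗ₘ f) := by
  rw [cy3, cy3, braiding_naturality_assoc, associator_naturality, Category.assoc]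

@[reassoc]
lemma cyc_nat {X X' : T} (f : X ⟶ X') :
    (f ⊗ₘ f ⊗ₘ f) ≫ cyc X' = cyc X ≫ (f ⊗ₘ f ⊗ₘ f) := cy3_nat f f f

@[reassoc]
lemma cyc_cube (M : T) : cyc M ≫ cyc M ≫ cyc M = 𝟙 _ := by
  rw [cyc_eq_cy3, cy3_eq]
  simp only [Category.assoc]
  rw [braid_assoc, swr_swr_assoc, swl_swl_assoc, swr_swr]

lemma swr_cyc (M : T) : swr M M M ≫ cyc M = (cyc M ≫ cyc M) ≫ swr M M M := by
  rw [cyc_eq_cy3, cy3_eq]
  simp only [Category.assoc]
  rw [swr_swr, Category.comp_id, braid]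

lemma swr_cyc_cyc (M : T) : swr M M M ≫ cyc M ≫ cyc M = cyc M ≫ swr M M M := by
  rw [cyc_eq_cy3, cy3_eq]
  simp only [Category.assoc]
  rw [← braid_assoc, swl_swl_assoc]

variable [Preadditive T]

/-- The norm `1 + T + T ^ 2`. -/
def nrm (M : T) : M ⊗ M ⊗ M ⟶ M ⊗ M ⊗ M := 𝟙 _ + cyc M + cyc M ≫ cyc M

@[reassoc]
lemma swr_nrm (M : T) : swr M M M ≫ nrm M = nrm M ≫ swr M M M := by
  rw [nrm, Preadditive.comp_add, Preadditive.comp_add, Preadditive.add_comp, Preadditive.add_comp,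
    swr_cyc, swr_cyc_cyc, Category.comp_id, Category.id_comp]
  abel

@[reassoc]
lemma nrm_nat {X X' : T} (f : X ⟶ X') :
    (f ⊗ₘ f ⊗ₘ f) ≫ nrm X' = nrm X ≫ (f ⊗ₘ f ⊗ₘ f) := by
  rw [nrm, nrm, Preadditive.comp_add, Preadditive.comp_add, Preadditive.add_comp,
    Preadditive.add_comp, cyc_nat_assoc, cyc_nat, Category.comp_id, Category.id_comp,
    Category.assoc]

/-- The braiding of `Y ⊗ Y` is `s`. -/
def Br (Y : T) (s : ℤ) : Prop := (β_ Y Y).hom = s • 𝟙 (Y ⊗ Y)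

variable [MonoidalPreadditive T]

lemma wl_zsmul (X : T) {Y Z : T} (s : ℤ) (f : Y ⟶ Z) : X ◁ (s • f) = s • (X ◁ f) :=
  (tensorLeft X).map_zsmul

lemma zsmul_wr (X : T) {Y Z : T} (s : ℤ) (f : Y ⟶ Z) : (s • f) ▷ X = s • (f ▷ X) :=
  (tensorRight X).map_zsmul

lemma Br.iso {Y Y' : T} {s : ℤ} (h : Br Y s) (e : Y ≅ Y') : Br Y' s := by
  have h1 := braiding_naturality e.hom e.hom
  rw [h, Preadditive.zsmul_comp, Category.id_comp] at h1
  rw [Br, ← cancel_epi (e.hom ⊗ₘ e.hom), h1, Preadditive.comp_zsmul, Category.comp_id]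

lemma Br.tensor {X Y : T} {s t : ℤ} (h : Br X s) (h' : Br Y t) : Br (X ⊗ Y) (s * t) := by
  have h1 := SymmetricCategory.tensorμ_braid_swap X Y
  rw [h, h', tensorHom_def, zsmul_wr, wl_zsmul, id_whiskerRight, MonoidalCategory.whiskerLeft_id,
    Preadditive.zsmul_comp, Preadditive.zsmul_comp, Category.id_comp, Preadditive.zsmul_comp,
    Category.id_comp, smul_smul] at h1
  have h2 := congrArg (tensorδ X X Y Y ≫ ·) h1
  simp only [tensorδ_tensorμ_assoc, Preadditive.comp_zsmul, tensorδ_tensorμ] at h2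
  exact h2

lemma br_unit : Br (𝟙_ T) 1 := by
  rw [Br, one_smul, braiding_tensorUnit_left, unitors_equal, Iso.hom_inv_id]

lemma Br.swr {Y : T} {s : ℤ} (h : Br Y s) (X : T) : swr X Y Y = s • 𝟙 _ := by
  rw [P236R.swr, h, wl_zsmul, MonoidalCategory.whiskerLeft_id]

lemma Br.swl {Y : T} {s : ℤ} (h : Br Y s) (X : T) : swl Y Y X = s • 𝟙 _ := by
  rw [P236R.swl, h, zsmul_wr, id_whiskerRight, Preadditive.zsmul_comp, Category.id_comp,
    Preadditive.comp_zsmul, Iso.inv_hom_id]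

lemma Br.cyc {Y : T} {s : ℤ} (h : Br Y s) (hs : s * s = 1) : cyc Y = 𝟙 _ := by
  rw [cyc_eq_cy3, cy3_eq, h.swl, h.swr, Preadditive.zsmul_comp, Category.id_comp, smul_smul, hs,
    one_smul]

lemma Br.nrm {Y : T} {s : ℤ} (h : Br Y s) (hs : s * s = 1) : nrm Y = (3 : ℤ) • 𝟙 _ := by
  rw [P236R.nrm, h.cyc hs, Category.id_comp]
  abel

end Perm

variable {T : Type u} [Category.{v} T] [Preadditive T] [HasZeroObject T] [HasShift T ℤ]
  [∀ n : ℤ, (shiftFunctor T n).Additive] [Pretriangulated T] [MonoidalCategory T]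
  [SymmetricCategory T] [TensorTriangulated T]

lemma Br.shift {Y : T} {s : ℤ} (h : Br Y s) : Br (Y⟦(1 : ℤ)⟧) (-s) := by
  have h1 : Br ((𝟙_ T)⟦(1 : ℤ)⟧) (-1) := by
    rw [Br, neg_one_zsmul]
    exact TensorTriangulated.sign
  have h2 := (h.tensor h1).iso (TensorTriangulated.e Y)
  rwa [mul_neg_one] at h2

/-- `Y` is a sphere of dimension `n`. -/
def Sph (Y : T) (n : ℤ) : Prop := Nonempty (Y ≅ (𝟙_ T)⟦n⟧)

lemma sph_self (n : ℤ) : Sph ((𝟙_ T)⟦n⟧) n := ⟨Iso.refl _⟩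

lemma sph_unit : Sph (𝟙_ T) 0 := ⟨((shiftFunctorZero T ℤ).app _).symm⟩

lemma Sph.iso {Y Y' : T} {n : ℤ} (h : Sph Y n) (e : Y' ≅ Y) : Sph Y' n := ⟨e ≪≫ h.some⟩

lemma Sph.shift {Y : T} {n : ℤ} (h : Sph Y n) (k : ℤ) {m : ℤ} (hm : n + k = m) :
    Sph (Y⟦k⟧) m :=
  ⟨(shiftFunctor T k).mapIso h.some ≪≫ ((shiftFunctorAdd' T n k m hm).app _).symm⟩

lemma Sph.tensor {X Y : T} {n k m : ℤ} (h : Sph X n) (h' : Sph Y k) (hm : n + k = m) :
    Sph (X ⊗ Y) m :=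
  (h.shift k hm).iso (whiskerLeftIso X h'.some ≪≫ tensorSph k X)

lemma Sph.nonempty_iso {X Y : T} {n : ℤ} (h : Sph X n) (h' : Sph Y n) : Nonempty (X ≅ Y) :=
  ⟨h.some ≪≫ h'.some.symm⟩

lemma Sph.br_nat {n : ℕ} : ∀ {Y : T}, Sph Y n → Br Y ((-1) ^ n) := by
  induction n with
  | zero => exact fun h => br_unit.iso (sph_unit.nonempty_iso h).some
  | succ n ih =>
    intro Y h
    have h1 := (ih (sph_self (T := T) n)).shift
    rw [pow_succ, mul_neg_one]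
    exact h1.iso (((sph_self (T := T) n).shift 1 (by push_cast; rfl)).nonempty_iso h).some

lemma Sph.br_even {Y : T} {n : ℤ} (h : Sph Y n) (h0 : 0 ≤ n) (he : Even n) : Br Y 1 := by
  obtain ⟨n, rfl⟩ := Int.eq_ofNat_of_zero_le h0
  have h1 := h.br_nat
  rwa [Even.neg_one_pow ((Int.even_coe_nat n).1 he)] at h1

end Vale.Agent.P236R
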