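import Vale.Agent.P236R.Van
import Vale.Agent.P236S.Ex
import Vale.Agent.P236H.OrdDef

/-!
# P236, block ORD: maps from a Moore object to the unit are permanent cycles of `V`

* `exists_dual`: the duality `Hom (X, B) ≃ Hom (L⟦1⟧, B ⊗ V)` for a Moore object `X` on `L`;
* `rep_of`: a map from a Moore object to the unit is represented by a permanent cycle.
-/

open CategoryTheory MonoidalCategory Limits Pretriangulated MonObj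

set_option linter.unusedSectionVars false

universe v u

namespace Vale.Agent.P236R

open Vale.Agent.P251 Vale.Agent.P251.T Vale.Agent.P251.F Vale.Agent.P251.I
  Vale.Agent.P251.M Vale.Agent.P257.H314 Vale.Agent.P257.H712 Vale.Agent.P236K
open Vale.Agent.P251.S hiding IC
open Vale.Agent.P236L (Perm Gen sM cls coch)

variable {T : Type u} [Category.{v} T] [Preadditive T] [HasZeroObject T]
    [HasShift T ℤ] [∀ n : ℤ, (shiftFunctor T n).Additive] [Pretriangulated T]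

/-- The suspension of a Moore object. -/
lemma Moo.shift {L X : T} {i : L ⟶ X} {δ : X ⟶ L⟦(1 : ℤ)⟧} (hX : Moo i δ) :
    Moo (i⟦(1 : ℤ)⟧') (-δ⟦(1 : ℤ)⟧') := by
  have h := rot_of_distTriang _ (rot_of_distTriang _ (rot_of_distTriang _ hX))
  refine isomorphic_distinguished _ h _
    (Triangle.isoMk _ _ (Iso.refl _) (-Iso.refl _) (Iso.refl _) ?_ ?_ ?_)
  · change ((3 : ℤ) • 𝟙 _) ≫ (-𝟙 _) = 𝟙 _ ≫ (-((3 : ℤ) • 𝟙 L)⟦(1 : ℤ)⟧')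
    rw [Functor.map_zsmul, CategoryTheory.Functor.map_id, Preadditive.comp_neg, Category.comp_id,
      Category.id_comp]
  · change i⟦(1 : ℤ)⟧' ≫ 𝟙 _ = (-𝟙 _) ≫ (-i⟦(1 : ℤ)⟧')
    rw [Preadditive.neg_comp_neg, Category.comp_id, Category.id_comp]
  · change (-δ⟦(1 : ℤ)⟧') ≫ (𝟙 (L⟦(1 : ℤ)⟧))⟦(1 : ℤ)⟧' = 𝟙 _ ≫ (-δ⟦(1 : ℤ)⟧')
    rw [CategoryTheory.Functor.map_id, Category.comp_id, Category.id_comp]

variable [MonoidalCategory T] [SymmetricCategory T] [TensorTriangulated T]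
  {V : T} {i : 𝟙_ T ⟶ V} {δ : V ⟶ (𝟙_ T)⟦(1 : ℤ)⟧}

/-- The reduction `B ⟶ B ⊗ V`. -/
def rd (i : 𝟙_ T ⟶ V) (B : T) : B ⟶ B ⊗ V := (ρ_ B).inv ≫ (B ◁ i)

@[reassoc]
lemma rd_nat {A B : T} (f : A ⟶ B) : f ≫ rd i B = rd i A ≫ (f ▷ V) := (redC i).naturality f

lemma moo_rd (hC : Moo i δ) (B : T) : Moo (rd i B) (bdC δ B) := redTri_distinguished hC B

/-- Moore objects are self dual. -/
theorem exists_dual (hC : Moo i δ) {L X : T} {iX : L ⟶ X} {δX : X ⟶ L⟦(1 : ℤ)⟧} (hX : Moo iX δX)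
    (hP : Zr L (L⟦(1 : ℤ)⟧)) : ∃ υ : L⟦(1 : ℤ)⟧ ⟶ X ⊗ V,
      (∀ {B : T} (m : L⟦(1 : ℤ)⟧ ⟶ B), υ ≫ (δX ≫ m) ▷ V = -(m ≫ rd i B)) ∧
      (∀ {B : T} (f : X ⟶ B), (υ ≫ f ▷ V) ≫ bdC δ B = (iX ≫ f)⟦(1 : ℤ)⟧') ∧
      ∀ B : T, Function.Bijective fun f : X ⟶ B => υ ≫ f ▷ V := by
  obtain ⟨υ, h1, h2⟩ : ∃ υ : L⟦(1 : ℤ)⟧ ⟶ X ⊗ V,
      υ ≫ (δX ▷ V) ≫ P236S.cm (tensorRight V) L = -(𝟙 L ≫ rd i L)⟦(1 : ℤ)⟧' ∧
        υ ≫ bdC δ X = (𝟙 L ≫ iX)⟦(1 : ℤ)⟧' :=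
    (P236S.mqMoore hC).tc hP hX (𝟙 L) (𝟙 L) (Category.id_comp _)
  rw [Category.id_comp] at h1 h2
  have h3 : rd i (L⟦(1 : ℤ)⟧) ≫ P236S.cm (tensorRight V) L = (rd i L)⟦(1 : ℤ)⟧' :=
    P236S.red_cm (tensorRight V) (redC i) L
  have : IsIso (P236S.cm (tensorRight V) L) := by unfold P236S.cm; infer_instance
  have h4 : υ ≫ (δX ▷ V) = -rd i (L⟦(1 : ℤ)⟧) := by
    rw [← cancel_mono (P236S.cm (tensorRight V) L), Category.assoc, h1, Preadditive.neg_comp, h3]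
  have k1 : ∀ {B : T} (m : L⟦(1 : ℤ)⟧ ⟶ B), υ ≫ (δX ≫ m) ▷ V = -(m ≫ rd i B) := fun m => by
    rw [comp_whiskerRight, reassoc_of% h4, Preadditive.neg_comp, rd_nat]
  have k2 : ∀ {B : T} (f : X ⟶ B), (υ ≫ f ▷ V) ≫ bdC δ B = (iX ≫ f)⟦(1 : ℤ)⟧' := fun f => by
    rw [Category.assoc, bdC_naturality, reassoc_of% h2, Functor.map_comp]
  have k3 : ∀ {B : T} (f : X ⟶ B), υ ≫ f ▷ V = 0 → f = 0 := fun {B} f hf => by
    have h5 := k2 f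
    rw [hf, zero_comp] at h5
    obtain ⟨m, rfl⟩ : ∃ m : L⟦(1 : ℤ)⟧ ⟶ B, f = δX ≫ m :=
      Triangle.yoneda_exact₃ _ hX f ((shiftFunctor T (1 : ℤ)).map_injective
        (h5.symm.trans (Functor.map_zero _ _ _).symm))
    rw [k1, neg_eq_zero] at hf
    obtain ⟨m', rfl⟩ := exists_zsmul_of_red hC m hf
    rw [Preadditive.comp_zsmul, ← Preadditive.zsmul_comp, hX.smul_δ, zero_comp]
  refine ⟨υ, k1, k2, fun B => ⟨fun f f' h => ?_, fun y => ?_⟩⟩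
  · rw [← sub_eq_zero]
    apply k3
    have h5 : (f - f') ▷ V = f ▷ V - f' ▷ V := (tensorRight V).map_sub
    rw [h5, Preadditive.comp_sub]
    exact sub_eq_zero.2 h
  · obtain ⟨a, ha⟩ := (shiftFunctor T (1 : ℤ)).map_surjective (y ≫ bdC δ B)
    obtain ⟨f, hf⟩ : ∃ f : X ⟶ B, a = iX ≫ f :=
      Triangle.yoneda_exact₂ _ hX a (by
        change ((3 : ℤ) • 𝟙 L) ≫ a = 0
        apply (shiftFunctor T (1 : ℤ)).map_injective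
        rw [Preadditive.zsmul_comp, Category.id_comp, Functor.map_zsmul, ha, Functor.map_zero,
          ← Preadditive.comp_zsmul, (moo_rd hC B).smul_δ, comp_zero])
    obtain ⟨m, hm⟩ := (moo_rd hC B).lift_i' (υ ≫ f ▷ V - y) (by
      rw [Preadditive.sub_comp, k2, ← hf, ha, sub_self])
    refine ⟨f + δX ≫ m, ?_⟩
    change υ ≫ (f + δX ≫ m) ▷ V = y
    rw [MonoidalPreadditive.add_whiskerRight, Preadditive.comp_add, k1, ← hm]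
    abel

variable [HasCoproducts.{0} T] (D : MUData T) (U : UnitCof D.R)

include D in
lemma zr_neg {L : T} {n : ℤ} (hL : Sph L n) : Zr L (L⟦(1 : ℤ)⟧) :=
  Zr.iso (fun f => P236S.sph_neg (D := D) n f) hL.some.symm
    ((shiftFunctor T (1 : ℤ)).mapIso hL.some.symm)

/-- A map from a Moore object to the unit is represented by a permanent cycle of `V`. -/
theorem rep_of_wt (hC : Moo i δ) {L X : T} {iX : L ⟶ X} {δX : X ⟶ L⟦(1 : ℤ)⟧} (hX : Moo iX δX)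
    {n w : ℤ} (hL : Sph L n) (hw : n + 2 = 2 * w) (g : X ⟶ 𝟙_ T) :
    ∃ (x : Cob.wt Laz 1 w) (φ : L⟦(1 : ℤ)⟧⟦(1 : ℤ)⟧ ≅ (stdEven T).S w),
      Cob.d 1 x.1 ∈ IC 3 1 2 ∧ Perm D U i x ∧ P236H.Rep D U x g (δX⟦(1 : ℤ)⟧' ≫ φ.hom) := by
  have G : Gen D U i (IC 3 1) := P236S.gen_three hC
  have h0 : g ≫ unitMap D.R (𝟙_ T) = 0 := by
    obtain ⟨υ, -, -, hb⟩ := exists_dual hC hX (zr_neg D hL)
    apply (hb _).1
    change υ ≫ (g ≫ unitMap D.R (𝟙_ T)) ▷ V = υ ≫ (0 : X ⟶ D.R ⊗ 𝟙_ T) ▷ V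
    obtain ⟨e⟩ : Sph (L⟦(1 : ℤ)⟧) (2 * (w - 1) + 1) := hL.shift 1 (by omega)
    have h1 : 2 * (w - 1) + 1 + ((0 : ℕ) : ℤ) = 2 * (w - 1) + 1 := by simp
    have key : Zr ((𝟙_ T)⟦2 * (w - 1) + 1⟧) ((D.R ⊗ 𝟙_ T) ⊗ V) := fun f => by
      have h2 := G.E_odd h1 ((((U.tow (𝟙_ T)).map (tensorRight V)).eE (𝟙_ T) h1).symm f)
      exact (AddEquiv.map_eq_zero_iff _).1 h2
    rw [key.iso e.symm (Iso.refl _) (υ ≫ _), key.iso e.symm (Iso.refl _) (υ ≫ _)]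
  obtain ⟨c, hc⟩ : ∃ c : X⟦(1 : ℤ)⟧ ⟶ U.cobar.B 1 (𝟙_ T), g⟦(1 : ℤ)⟧' = c ≫ U.bd 0 (𝟙_ T) :=
    Triangle.coyoneda_exact₁ _ ((U.tow (𝟙_ T)).dist 0) (g⟦(1 : ℤ)⟧') (by
      change g⟦(1 : ℤ)⟧' ≫ (unitMap D.R (𝟙_ T))⟦(1 : ℤ)⟧' = 0
      rw [← Functor.map_comp, h0, Functor.map_zero])
  obtain ⟨υ, k1, -, hb⟩ := exists_dual hC hX.shift (zr_neg D (hL.shift 1 rfl))
  obtain ⟨e⟩ : Sph (L⟦(1 : ℤ)⟧⟦(1 : ℤ)⟧) (2 * w) := (hL.shift 1 rfl).shift 1 (by omega)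
  have h1 : 2 * w - 1 + ((1 : ℕ) : ℤ) = 2 * w := by simp
  let y : (CV U V).D 1 (2 * w - 1) :=
    (((U.tow (𝟙_ T)).map (tensorRight V)).eD (𝟙_ T) h1).symm (e.inv ≫ υ ≫ c ▷ V)
  obtain ⟨x, hx, hj⟩ := G.exists_cocycle h1 _ ((CV U V).isCocycle_j y)
  refine ⟨x, e ≪≫ (sM T w).symm, hx, ⟨_, h1, y, hj.symm⟩, c, hc.symm, ?_⟩
  have h2 := ((U.tow (𝟙_ T)).map (tensorRight V)).eE_j (𝟙_ T) h1 y
  rw [← hj, AddEquiv.apply_symm_apply] at h2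
  have h3 : coch D U i 1 w x ≫ (U.cobar.q 1 (𝟙_ T) ▷ V) =
      (e.inv ≫ υ ≫ c ▷ V) ≫ (unitMap D.R (U.cobar.B 1 (𝟙_ T)) ▷ V) :=
    (U.eT_qE (𝟙_ T) (tensorRight V) (𝟙_ T) h1 (coch D U i 1 w x)).symm.trans h2
  have h4 : coch D U i 1 w x = (sM T w).inv ≫ (D.evw 1 w x ≫ (D.qAm U 2).inv) ≫ rd i _ := rfl
  apply (hb _).1
  have h5 := k1 (-(e.hom ≫ (sM T w).inv ≫ D.evw 1 w x ≫ P236Z.Dt.qq D U 1))
  rw [Preadditive.neg_comp_neg, Preadditive.neg_comp, neg_neg] at h5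
  change υ ≫ (c ≫ unitMap D.R _) ▷ V = υ ≫ ((δX⟦(1 : ℤ)⟧' ≫ e.hom ≫ (sM T w).inv) ≫
    D.evw 1 w x ≫ P236Z.Dt.qq D U 1) ▷ V
  rw [Category.assoc, Category.assoc, h5, comp_whiskerRight, ← cancel_epi e.inv]
  simp only [Category.assoc] at h3
  rw [← h3, h4, P236Z.Dt.qq]
  simp only [Category.assoc, Iso.inv_hom_id_assoc]
  rw [rd_nat (U.cobar.q 1 (𝟙_ T))]

/-- The case of the cell `(1, 81)`. -/
theorem rep_of (hC : Moo i δ) {L X : T} {iX : L ⟶ X} {δX : X ⟶ L⟦(1 : ℤ)⟧} (hX : Moo iX δX)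
    (hL : Sph L 322) (g : X ⟶ 𝟙_ T) :
    ∃ (x : Co 1 81) (π : X⟦(1 : ℤ)⟧ ⟶ (stdEven T).S (2 * ((81 : ℕ) : ℤ))),
      IsZ x ∧ Perm D U i x ∧ P236H.Rep D U x g π := by
  obtain ⟨x, φ, h1, h2, h3⟩ := rep_of_wt D U hC hX hL (w := 2 * ((81 : ℕ) : ℤ)) (by norm_num) g
  exact ⟨x, _, h1, h2, h3⟩

end Vale.Agent.P236R
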