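import Vale.Agent.P236R.Kap
import Vale.Agent.P236R.RepB
import Vale.Agent.P236G.Trn
import Vale.Agent.P236D.Lead
import Vale.Agent.P236E.Coh
import Vale.Agent.P236H.Main
import Vale.Agent.P257.H709.LowPi

/-!
# P236, block ORD: the assembly

`engOut3_three`: the class `b_3` is the Bockstein of a permanent cycle of the tower of `S / 3`,
from the cyclic cube construction and the statements `OrdA`, `OrdC`.
-/

open CategoryTheory MonoidalCategory Limits Pretriangulated MonObj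

set_option linter.unusedSectionVars false

universe u

namespace Vale.Agent.P236R

open Vale.Agent.P251 Vale.Agent.P251.T Vale.Agent.P251.F Vale.Agent.P251.I Vale.Agent.P251.M
  Vale.Agent.P257.H93 Vale.Agent.P236K Vale.Agent.P236Z Vale.Agent.P236G
open Vale.Agent.P251.S hiding IC
open Vale.Agent.P236L (Bd Perm)

variable {T : Type u} [Category.{0} T] [Preadditive T] [HasZeroObject T]
    [HasShift T ℤ] [∀ n : ℤ, (shiftFunctor T n).Additive] [Pretriangulated T] [IsTriangulated T]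
    [MonoidalCategory T] [SymmetricCategory T] [TensorTriangulated T] [MonoidalClosed T]
    [HasCoproducts.{0} T] [HasProducts.{0} T] [StableCat T]
    (D : MUData T) (U : UnitCof D.R) {V : T} (i : 𝟙_ T ⟶ V)

/-- The map `φ` has filtration one and is represented by `x` on the quotient `π`. -/
def Rp {w : ℤ} (x : Cob.wt Laz 1 w) {X : T} (φ : X ⟶ 𝟙_ T)
    (π : X⟦(1 : ℤ)⟧ ⟶ (stdEven T).S w) : Prop :=
  ∃ c : X⟦(1 : ℤ)⟧ ⟶ U.cobar.B 1 (𝟙_ T), c ≫ U.bd 0 (𝟙_ T) = φ⟦(1 : ℤ)⟧' ∧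
    c ≫ unitMap D.R _ = π ≫ D.evw 1 w x ≫ Dt.qq D U 1

/-- Output of the engine: the permanent cycle over `b_2`, and a product which vanishes. -/
def EngOutO : Prop :=
  ∃ (x : Co 1 (3 ^ (2 + 1))) (x₂ : Co 2 (3 ^ (2 + 1))), Cob.d 1 x.1 = (3 : ℤ) • x₂.1 ∧
    Perm D U i x ∧ Lead 2 x₂ ∧ P236K.IsB (cupT (s' := 5) (T' := 81) rfl rfl x
      (cupT (s' := 4) (T' := 54) rfl rfl x₂ x₂))

/-- Permanent cycles of high filtration in the stem `322` are boundaries. -/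
def High3 : Prop :=
  ∀ (s W : ℕ) (y : Co s W), 10 ≤ s → 4 * W + 2 = 4 * 3 ^ (3 + 1) + s → Perm D U i y →
    Bd D U i 5 y

/-- The dual of the class over `b_2`; its third power extends with filtration two. -/
def OrdA : Prop :=
  High3 D U i → ∀ (x : Co 1 (3 ^ (2 + 1))) (x₂ : Co 2 (3 ^ (2 + 1))),
    Cob.d 1 x.1 = (3 : ℤ) • x₂.1 → Perm D U i x →
    P236K.IsB (cupT (s' := 5) (T' := 81) rfl rfl x (cupT (s' := 4) (T' := 54) rfl rfl x₂ x₂)) →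
    ∀ (L X : T) (iX : L ⟶ X) (dX : X ⟶ L⟦(1 : ℤ)⟧), Moo iX dX → Sph L 106 →
    ∃ (f : X ⟶ 𝟙_ T) (φ : L⟦(1 : ℤ)⟧⟦(1 : ℤ)⟧ ≅ (stdEven T).S (2 * ((3 ^ (2 + 1) : ℕ) : ℤ))),
      Rp D U x f (dX⟦(1 : ℤ)⟧' ≫ φ.hom) ∧
      ∀ (L' P : T) (i' : L' ⟶ P) (d' : P ⟶ L'⟦(1 : ℤ)⟧), Moo i' d' → Sph L' 321 →
        ∀ (ψ : P ⟶ L ⊗ L ⊗ X) (Z : T) (e : L ⊗ L ⊗ X ⟶ Z) (q : Z ⟶ P⟦(1 : ℤ)⟧),
          Triangle.mk ψ e q ∈ distTriang T → ∃ G : Z ⟶ 𝟙_ T, Tr.AF η[D.R] 2 G ∧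
            e ≫ G = ((iX ≫ f) ⊗ₘ (iX ≫ f) ⊗ₘ f) ≫ (λ_ _).hom ≫ (λ_ _).hom

/-- Maps from the Moore object of dimension `322` are represented by permanent cycles. -/
def OrdB : Prop :=
  ∀ (L' W : T) (i' : L' ⟶ W) (d' : W ⟶ L'⟦(1 : ℤ)⟧), Moo i' d' → Sph L' 322 →
    ∀ g : W ⟶ 𝟙_ T, ∃ x : Co 1 (3 ^ (3 + 1)), IsZ x ∧ Perm D U i x ∧ ∃ π, Rp D U x g π

/-- Detection. -/
def OrdC : Prop :=
  ∀ (L X C : T) (iX : L ⟶ X) (dX : X ⟶ L⟦(1 : ℤ)⟧) (f : X ⟶ 𝟙_ T) (e : 𝟙_ T ⟶ C)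
    (p : C ⟶ X⟦(1 : ℤ)⟧), Moo iX dX → Sph L 106 → Triangle.mk f e p ∈ distTriang T →
    ∀ (K : Cyc3 f e p) (κ : Kap K.PX iX dX) (G : κ.Z ⟶ 𝟙_ T)
      (g : ((L⟦(1 : ℤ)⟧) ⊗ (L⟦(1 : ℤ)⟧) ⊗ X)⟦(1 : ℤ)⟧⟦(1 : ℤ)⟧ ⟶ 𝟙_ T), Tr.AF η[D.R] 2 G →
      Kap.F K κ ≫ (λ_ _).hom ≫ (λ_ _).hom = G + κ.q ≫ g →
      ∀ (x : Co 1 (3 ^ (2 + 1)))
        (φ : L⟦(1 : ℤ)⟧⟦(1 : ℤ)⟧ ≅ (stdEven T).S (2 * ((3 ^ (2 + 1) : ℕ) : ℤ))),
        IsZ x → fP 3 1 x.1 ≠ 0 → Rp D U x f (dX⟦(1 : ℤ)⟧' ≫ φ.hom) →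
        ∀ (y : Co 1 (3 ^ (3 + 1))) π, Rp D U y g π → fP 3 1 y.1 ≠ 0

variable {D U i}

theorem ordB_of {δ : V ⟶ (𝟙_ T)⟦(1 : ℤ)⟧} (hV : Moo i δ) : OrdB D U i :=
  fun _ _ _ _ hX hL g => by
    obtain ⟨x, π, h1, h2, h3⟩ := rep_of D U hV hX hL g
    exact ⟨x, h1, h2, π, h3⟩

theorem engOut3_three (F : SpaceFunctor T) {δ : V ⟶ (𝟙_ T)⟦(1 : ℤ)⟧} (hV : Moo i δ)
    (hK : GeoStmt T) (hA : OrdA D U i) (hC : OrdC D U)
    (hO : EngOutO D U i) (hE : High3 D U i) : EngOut3 D U i 3 := by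
  obtain ⟨x, x₂, hx, hp, hl, hb⟩ := hO
  have hLow : Low T := low_of hV fun j h1 h2 f =>
    P257.H709.pi_low D U (p := 3) (by norm_num) hV h1 (by push_cast; omega) f
  obtain ⟨L, hL⟩ : ∃ L : T, L = (𝟙_ T)⟦(106 : ℤ)⟧ := ⟨_, rfl⟩
  have sL : Sph L 106 := hL ▸ sph_self 106
  obtain ⟨X, iX, dX, hX⟩ := distinguished_cocone_triangle ((3 : ℤ) • 𝟙 L)
  obtain ⟨f, φ, hf, hG⟩ := hA hE x x₂ hx hp hb L X iX dX hX sL
  obtain ⟨C, e, p, hCf⟩ := distinguished_cocone_triangle f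
  have cL : Tr.Cell (fun _ => True) L := hL ▸ Tr.Cell.sphere 106 trivial
  have cX : Tr.Cell (fun _ => True) X :=
    Tr.Cell.ext (rot_of_distTriang _ hX) cL (cL.shift 1 fun _ _ => trivial)
  obtain ⟨K⟩ := cycStmt_of hK F _ X C cX f e p hCf
  obtain ⟨κ⟩ := exists_kap hLow hX sL (sL.br_even (by norm_num) (by decide)) K.PX
  have s1 := sL.shift 1 rfl
  have s3 := s1.tensor (s1.tensor sL rfl) rfl
  have m₁ := (Moo.tens hX (L⟦(1 : ℤ)⟧) (L⟦(1 : ℤ)⟧)).shift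
  obtain ⟨G, hG1, hG2⟩ := hG _ _ _ _ m₁ (s3.shift 1 (by norm_num)) κ.ψ κ.Z κ.e κ.q κ.tr
  obtain ⟨g, hg⟩ : ∃ g : _ ⟶ 𝟙_ T, Kap.F K κ ≫ (λ_ _).hom ≫ (λ_ _).hom - G = κ.q ≫ g :=
    Triangle.yoneda_exact₂ _ (rot_of_distTriang _ κ.tr) _ (by
      change κ.e ≫ (Kap.F K κ ≫ (λ_ _).hom ≫ (λ_ _).hom - G) = 0
      rw [Preadditive.comp_sub, hG2, ← Category.assoc, Kap.e_F, sub_self])
  obtain ⟨y, hy, hy1, π, hy2⟩ := ordB_of (D := D) (U := U) hV _ _ _ _ m₁.shift ((s3.shift 1 rfl).shift 1 (by norm_num)) g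
  have h1 := hC L X C iX dX f e p hX sL hCf K κ G g hG1 (by rw [← hg]; abel) x φ
    (by rw [IsZ, hx]; exact P236E.three_mem _) ((P236D.lead_iff 2 x x₂ hx).1 hl) hf y π hy2
  obtain ⟨y₂, hy₂⟩ := P236E.exists_div (Cob.dwt Laz 1 _ y).2 hy
  exact ⟨y, y₂, hy₂, hy1, (P236D.lead_iff 3 y y₂ hy₂).2 h1⟩

open P236H in
/-- The final statement with order three. -/
theorem fin_three (hK : ∀ T : P251.St.SHCat, GeoStmt T.C)
    (hA : Always fun _ D U _ i => OrdA D U i)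
    (hC : Always fun _ D U _ _ => OrdC D U) (h1 : Always fun _ D U _ i => EngOut1 D U i)
    (hO : Always fun _ D U _ i => EngOutO D U i) (h3 : Always fun _ D U _ i => EngOut D U i 3) :
    FIN 3 :=
  fin_of h1 (always_core3 fun T F e D hU U V i δ hV => by
      obtain ⟨x, x₂, a, b, c, -⟩ := hO T F e D hU U V i δ hV
      exact ⟨x, x₂, a, b, c⟩)
    (always_core3 fun T F e D hU U V i δ hV => engOut3_three F hV (hK T)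
      (hA T F e D hU U V i δ hV) (hC T F e D hU U V i δ hV)
      (hO T F e D hU U V i δ hV) (h3 T F e D hU U V i δ hV).2)

end Vale.Agent.P236R
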