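import Vale.Agent.P236R.OutO
import Vale.Agent.P236G.Asm
import Vale.Agent.P236S.Ord5
import Vale.Agent.P236H.OrdE

/-!
# P236, block ORD: the final statement with order three from the tables and a certificate
-/

open CategoryTheory MonoidalCategory Limits Pretriangulated

namespace Vale.Agent.P236E

open Vale.Agent.P236K Vale.Agent.P236H Vale.Agent.P236R

theorem always_ordA : Always fun _ D U _ i => OrdA D U i :=
  fun _ _ _ D _ U _ _ _ hC hE _ _ hx hp hB _ _ _ _ hX hL => by
    have hLow := low_of hC fun j h1 h2 f =>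
      P257.H709.pi_low D U (p := 3) (by norm_num) hC h1 (by push_cast; omega) f
    obtain ⟨f, φ, c, h1, h2, h3⟩ := P236S.ordA hC (hLow.smul_id hC sph_unit) (N₂ := 54) (M := 81)
      rfl rfl (fun s W y a b _ c => hE s W y a b c) hx hp hB hX hL
    exact ⟨f, φ, ⟨c, h1, h2⟩, fun _ _ _ _ h4 h5 _ _ _ _ h6 => h3 (P236S.mooN_of h4 h5) h6⟩

/-- The class `b_3` is the Bockstein of a permanent cycle. -/
theorem fin_three' (h1 : Always fun _ D U _ i => EngOut1 D U i)
    (hO : Always fun _ D U _ i => EngOutO D U i) (h3 : Always fun _ D U _ i => EngOut D U i 3) :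
    FIN 3 := fin_three (fun _ => P236G.geoStmt) always_ordA ordC h1 hO h3

/-- **The final statement with order three.** -/
theorem fin3_imp {τ₀ : Tab} (R : Real τ₀) {O : Orc}
    (hO : ∀ S : SS, Crd τ₀ S → Nonempty (CrdO O S)) {s T x l s' T' x' l' : ℕ} {outs : List Fact}
    (h : O.Imp [.ne false s T x l, .ne true s' T' x' l'] outs) (h8 : .goal 8 ∈ outs)
    (h7 : .goal 7 ∈ outs) {y k m : ℕ} {b : Bool}
    {cs : List (Mx × ℕ)} (hc : O.chkO y k cs = true) (hp : .perm 1 27 y ∈ outs)
    (hk : .eqf (fadd (LE false 5 81 (O.ux 5 81 k) (ul m)) (.cons 0 b .nil)) ∈ outs) : FIN 3 :=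
  fin_three_of_imp (fun _ => P236G.geoStmt) always_ordA ordC R hO h h8 h7 hc hp hk

end Vale.Agent.P236E
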