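import Vale.Agent.P236R.Van
import Vale.Agent.P236G.Cyc

/-!
# P236, block ORD, steps 2 to 4: the top cells of the cyclic cube of a Moore object

`X` is the cone of `3` on an even sphere `L`, `L₁ = L⟦1⟧`.  `Kap P i δ`: a map `κ` from the cone of
some `ψ : (L₁ ⊗ L₁ ⊗ X)⟦1⟧ ⟶ L ⊗ L ⊗ X` to the two-skeleton of the cyclic cube of `X`, which is
of degree one on the two top cells and on the bottom cell.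
-/

open CategoryTheory MonoidalCategory Limits Pretriangulated

set_option linter.unusedSectionVars false

universe v u

namespace Vale.Agent.P236R

open Vale.Agent.P251.T Vale.Agent.P251.S Vale.Agent.P236G
open Vale.Agent.P236Z.Cat (rot rot_natural rot_rot_rot)

section Rot

variable {T : Type u} [Category.{v} T] [MonoidalCategory T] [SymmetricCategory T]

lemma cyc_rot (M : T) : cyc M ≫ rot M M M = 𝟙 _ := by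
  rw [cyc, rot, Category.assoc, Iso.hom_inv_id_assoc, SymmetricCategory.symmetry]

lemma rot_eq (M : T) : rot M M M = cyc M ≫ cyc M := by
  have h := cyc_cube M
  rw [← Category.id_comp (rot M M M), ← h, Category.assoc, Category.assoc, cyc_rot,
    Category.comp_id]

lemma rot_rot (M : T) : rot M M M ≫ rot M M M = cyc M := by
  rw [rot_eq, Category.assoc, cyc_cube, Category.comp_id]

lemma nrm_eq [Preadditive T] (M : T) :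
    𝟙 (M ⊗ M ⊗ M) + rot M M M + rot M M M ≫ rot M M M = nrm M := by
  rw [rot_rot, rot_eq, nrm]
  abel

end Rot

variable {T : Type u} [Category.{v} T] [Preadditive T] [HasZeroObject T] [HasShift T ℤ]
  [∀ n : ℤ, (shiftFunctor T n).Additive] [Pretriangulated T] [MonoidalCategory T]
  [SymmetricCategory T] [TensorTriangulated T]

section Pos

variable {L X : T} {i : L ⟶ X} {δ : X ⟶ L⟦(1 : ℤ)⟧} (hX : Moo i δ)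

include hX

lemma Moo.i₁ (A : T) {W : T} (φ : W ⟶ X ⊗ A) (h : φ ≫ δ ▷ A = 0) :
    ∃ ψ : W ⟶ L ⊗ A, φ = ψ ≫ i ▷ A := hX.lift_i (tensorRight A) φ h

lemma Moo.i₂ (A B : T) {W : T} (φ : W ⟶ A ⊗ X ⊗ B) (h : φ ≫ A ◁ δ ▷ B = 0) :
    ∃ ψ : W ⟶ A ⊗ L ⊗ B, φ = ψ ≫ A ◁ i ▷ B := hX.lift_i (tensorRight B ⋙ tensorLeft A) φ h

lemma Moo.i₃ (A B : T) {W : T} (φ : W ⟶ A ⊗ B ⊗ X) (h : φ ≫ A ◁ B ◁ δ = 0) :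
    ∃ ψ : W ⟶ A ⊗ B ⊗ L, φ = ψ ≫ A ◁ B ◁ i := hX.lift_i (tensorLeft B ⋙ tensorLeft A) φ h

lemma Moo.δ₁ (A : T) {W : T} (y : W ⟶ (L⟦(1 : ℤ)⟧) ⊗ A) (h : (3 : ℤ) • y = 0) :
    ∃ ψ : W ⟶ X ⊗ A, y = ψ ≫ δ ▷ A := hX.lift_δ (tensorRight A) y h

lemma Moo.δ₂ (A B : T) {W : T} (y : W ⟶ A ⊗ (L⟦(1 : ℤ)⟧) ⊗ B) (h : (3 : ℤ) • y = 0) :
    ∃ ψ : W ⟶ A ⊗ X ⊗ B, y = ψ ≫ A ◁ δ ▷ B := hX.lift_δ (tensorRight B ⋙ tensorLeft A) y h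

lemma Moo.zr₃ {A B W : T} (h0 : Zr W (A ⊗ B ⊗ L)) (h1 : Zr W (A ⊗ B ⊗ (L⟦(1 : ℤ)⟧))) :
    Zr W (A ⊗ B ⊗ X) := hX.zr_into (tensorLeft B ⋙ tensorLeft A) h0 h1

/-- The Moore object `A ⊗ B ⊗ X`. -/
lemma Moo.tens (A B : T) : Moo (A ◁ B ◁ i)
    ((A ◁ B ◁ δ) ≫ ((tensorLeft B ⋙ tensorLeft A).commShiftIso (1 : ℤ)).hom.app L) :=
  hX.map (tensorLeft B ⋙ tensorLeft A)

end Pos

lemma cube_eq {X Y : T} (f : X ⟶ Y) :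
    (f ⊗ₘ f ⊗ₘ f) = f ▷ (X ⊗ X) ≫ Y ◁ f ▷ X ≫ Y ◁ Y ◁ f := by
  rw [MonoidalCategory.tensorHom_def, MonoidalCategory.tensorHom_def,
    MonoidalCategory.whiskerLeft_comp]

lemma cube_eq' {X Y : T} (f : X ⟶ Y) :
    (f ⊗ₘ f ⊗ₘ f) = X ◁ X ◁ f ≫ X ◁ f ▷ Y ≫ f ▷ (Y ⊗ Y) := by
  rw [tensorHom_def', tensorHom_def', MonoidalCategory.whiskerLeft_comp, Category.assoc]

section Steps

variable (H : Low T) {L X : T} {i : L ⟶ X} {δ : X ⟶ L⟦(1 : ℤ)⟧} (hX : Moo i δ) {n : ℤ}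
  (hL : Sph L n) (hb : Br L 1)

include H hX hL

lemma zr_top {Y : T} {b : ℤ} (hY : Sph Y b) (h : b = 3 * n + 2 ∨ b = 3 * n + 1) :
    Zr ((L⟦(1 : ℤ)⟧) ⊗ (L⟦(1 : ℤ)⟧) ⊗ X) Y :=
  H.zr (hX.tens _ _) ((hL.shift 1 rfl).tensor ((hL.shift 1 rfl).tensor hL rfl) rfl) hY (by omega)

lemma zr_top_shift {Y : T} {b : ℤ} (hY : Sph Y b) (h : b = 3 * n + 3 ∨ b = 3 * n + 2) :
    Zr (((L⟦(1 : ℤ)⟧) ⊗ (L⟦(1 : ℤ)⟧) ⊗ X)⟦(1 : ℤ)⟧) Y :=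
  H.zr_shift (hX.tens _ _) ((hL.shift 1 rfl).tensor ((hL.shift 1 rfl).tensor hL rfl) rfl) hY
    (by omega)

lemma smul_tens (A B : T) : (3 : ℤ) • 𝟙 (A ⊗ B ⊗ X) = 0 := by
  rw [← MonoidalCategory.whiskerLeft_id, ← MonoidalCategory.whiskerLeft_id, ← wl_zsmul,
    ← wl_zsmul, H.smul_id hX hL, MonoidalPreadditive.whiskerLeft_zero,
    MonoidalPreadditive.whiskerLeft_zero]

/-- A map from the top Moore object which vanishes on the top cell factors through the bottom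
cell. -/
lemma exists_bot (φ : (L⟦(1 : ℤ)⟧) ⊗ (L⟦(1 : ℤ)⟧) ⊗ X ⟶ X ⊗ X ⊗ X)
    (h : φ ≫ (δ ⊗ₘ δ ⊗ₘ δ) = 0) : ∃ c, φ = c ≫ (i ⊗ₘ i ⊗ₘ i) := by
  have h1 := hL.shift 1 rfl
  have z : ∀ {A B C : T} {a b c : ℤ}, Sph A a → Sph B b → Sph C c →
      (a + (b + c) = 3 * n + 2 ∨ a + (b + c) = 3 * n + 1) →
      Zr ((L⟦(1 : ℤ)⟧) ⊗ (L⟦(1 : ℤ)⟧) ⊗ X) (A ⊗ B ⊗ C) := fun hA hB hC h =>
    zr_top H hX hL (hA.tensor (hB.tensor hC rfl) rfl) h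
  rw [cube_eq, ← Category.assoc, ← Category.assoc] at h
  obtain ⟨x, hx⟩ := hX.i₃ _ _ _ h
  rw [z h1 h1 hL (by omega) x, zero_comp] at hx
  obtain ⟨y, hy⟩ := hX.i₂ _ _ _ hx
  rw [hX.zr₃ (z h1 hL hL (by omega)) (z h1 hL h1 (by omega)) y, zero_comp] at hy
  obtain ⟨φ₁, rfl⟩ := hX.i₁ _ _ hy
  obtain ⟨φ₂, rfl⟩ := hX.i₂ _ _ φ₁ (hX.zr₃ (z hL h1 hL (by omega)) (z hL h1 h1 (by omega)) _)
  obtain ⟨c, rfl⟩ := hX.i₃ _ _ φ₂ (z hL hL h1 (by omega) _)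
  exact ⟨c, by rw [cube_eq', Category.assoc, Category.assoc]⟩

include hb in
/-- Step 2: a section over the two top cells which is killed by the norm. -/
theorem exists_top : ∃ a : (L⟦(1 : ℤ)⟧) ⊗ (L⟦(1 : ℤ)⟧) ⊗ X ⟶ X ⊗ X ⊗ X,
    a ≫ (δ ⊗ₘ δ ⊗ₘ δ) = (L⟦(1 : ℤ)⟧) ◁ (L⟦(1 : ℤ)⟧) ◁ δ ∧ a ≫ nrm X = 0 := by
  obtain ⟨a₁, h1⟩ := hX.δ₂ _ _ (𝟙 ((L⟦(1 : ℤ)⟧) ⊗ (L⟦(1 : ℤ)⟧) ⊗ X)) (smul_tens H hX hL _ _)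
  obtain ⟨a, h2⟩ := hX.δ₁ _ a₁ (by
    rw [← Category.id_comp a₁, ← Preadditive.zsmul_comp, smul_tens H hX hL, zero_comp])
  have h3 : a ≫ (δ ⊗ₘ δ ⊗ₘ δ) = (L⟦(1 : ℤ)⟧) ◁ (L⟦(1 : ℤ)⟧) ◁ δ := by
    rw [cube_eq, ← reassoc_of% h2, ← reassoc_of% h1]
  have h4 : (3 : ℤ) • ((L⟦(1 : ℤ)⟧) ◁ (L⟦(1 : ℤ)⟧) ◁ δ) = 0 := by
    rw [← wl_zsmul, ← wl_zsmul, hX.smul_δ, MonoidalPreadditive.whiskerLeft_zero,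
      MonoidalPreadditive.whiskerLeft_zero]
  have hb1 : Br (L⟦(1 : ℤ)⟧) (-1) := hb.shift
  obtain ⟨c, hc⟩ := exists_bot H hX hL (a ≫ nrm X) (by
    rw [Category.assoc, ← nrm_nat, reassoc_of% h3, hb1.nrm (by norm_num), Preadditive.comp_zsmul,
      Category.comp_id, h4])
  refine ⟨a ≫ swr X X X - a, ?_, ?_⟩
  · rw [Preadditive.sub_comp, Category.assoc, ← swr_nat, reassoc_of% h3, h3, hb1.swr,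
      Preadditive.comp_zsmul, Category.comp_id, ← sub_eq_zero, ← neg_eq_zero, ← h4]
    abel
  · rw [Preadditive.sub_comp, Category.assoc, swr_nrm, reassoc_of% hc, hc, swr_nat, hb.swr,
      one_smul, Category.id_comp, sub_self]

/-- Step 3: maps from the suspension of the top Moore object. -/
lemma exists_three (φ : ((L⟦(1 : ℤ)⟧) ⊗ (L⟦(1 : ℤ)⟧) ⊗ X)⟦(1 : ℤ)⟧ ⟶ X ⊗ X ⊗ X) :
    ∃ (ψ₁ : _ ⟶ X ⊗ L ⊗ L) (ψ₂ : _ ⟶ L ⊗ X ⊗ L) (ψ₃ : _ ⟶ L ⊗ L ⊗ X),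
      φ = ψ₁ ≫ (𝟙 X ⊗ₘ i ⊗ₘ i) + ψ₂ ≫ (i ⊗ₘ 𝟙 X ⊗ₘ i) + ψ₃ ≫ (i ⊗ₘ i ⊗ₘ 𝟙 X) := by
  have h1 := hL.shift 1 rfl
  have z : ∀ {A B C : T} {a b c : ℤ}, Sph A a → Sph B b → Sph C c →
      (a + (b + c) = 3 * n + 3 ∨ a + (b + c) = 3 * n + 2) →
      Zr (((L⟦(1 : ℤ)⟧) ⊗ (L⟦(1 : ℤ)⟧) ⊗ X)⟦(1 : ℤ)⟧) (A ⊗ B ⊗ C) := fun hA hB hC h =>
    zr_top_shift H hX hL (hA.tensor (hB.tensor hC rfl) rfl) h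
  have h3 : ∀ {Y : T} (y : ((L⟦(1 : ℤ)⟧) ⊗ (L⟦(1 : ℤ)⟧) ⊗ X)⟦(1 : ℤ)⟧ ⟶ Y), (3 : ℤ) • y = 0 :=
    fun y => by
      rw [← Category.id_comp y, ← Preadditive.zsmul_comp, ← CategoryTheory.Functor.map_id,
        ← Functor.map_zsmul, smul_tens H hX hL, Functor.map_zero, zero_comp]
  obtain ⟨x, hx⟩ := hX.i₂ _ _ (φ ≫ δ ▷ (X ⊗ X))
    (hX.zr₃ (z h1 h1 hL (by omega)) (z h1 h1 h1 (by omega)) _)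
  obtain ⟨y, rfl⟩ := hX.i₃ _ _ x (z h1 hL h1 (by omega) _)
  obtain ⟨ψ₁, rfl⟩ := hX.δ₁ _ y (h3 y)
  obtain ⟨φ', h4⟩ := hX.i₁ _ (φ - ψ₁ ≫ (𝟙 X ⊗ₘ i ⊗ₘ i)) (by
    rw [Preadditive.sub_comp, hx, id_tensorHom, Category.assoc, Category.assoc, Category.assoc,
      whisker_exchange, tensorHom_def', MonoidalCategory.whiskerLeft_comp, sub_self])
  obtain ⟨y', hy'⟩ := hX.i₃ _ _ (φ' ≫ L ◁ δ ▷ X) (z hL h1 h1 (by omega) _)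
  obtain ⟨ψ₂, rfl⟩ := hX.δ₂ _ _ y' (h3 y')
  obtain ⟨ψ₃, h5⟩ := hX.i₂ _ _ (φ' - ψ₂ ≫ L ◁ X ◁ i) (by
    rw [Preadditive.sub_comp, hy', Category.assoc, Category.assoc,
      ← MonoidalCategory.whiskerLeft_comp, ← MonoidalCategory.whiskerLeft_comp, whisker_exchange,
      sub_self])
  refine ⟨ψ₁, ψ₂, ψ₃, ?_⟩
  rw [sub_eq_iff_eq_add] at h4 h5
  rw [h4, h5, Preadditive.add_comp, Category.assoc, Category.assoc, id_tensorHom X i,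
    tensorHom_id i X, tensorHom_def' i (X ◁ i), tensorHom_def' i (i ▷ X)]
  abel

end Steps

/-- The cone of a map between the top and the bottom Moore object, with a map to the
two-skeleton. -/
structure Kap {L X : T} (P : Orb (X ⊗ X ⊗ X) (rot X X X)) (i : L ⟶ X) (δ : X ⟶ L⟦(1 : ℤ)⟧) where
  /-- the section over the two top cells -/
  a : (L⟦(1 : ℤ)⟧) ⊗ (L⟦(1 : ℤ)⟧) ⊗ X ⟶ X ⊗ X ⊗ X
  top : a ≫ (δ ⊗ₘ δ ⊗ₘ δ) = (L⟦(1 : ℤ)⟧) ◁ (L⟦(1 : ℤ)⟧) ◁ δ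
  /-- the attaching map -/
  ψ : ((L⟦(1 : ℤ)⟧) ⊗ (L⟦(1 : ℤ)⟧) ⊗ X)⟦(1 : ℤ)⟧ ⟶ L ⊗ L ⊗ X
  /-- the cone -/
  Z : T
  /-- the inclusion -/
  e : L ⊗ L ⊗ X ⟶ Z
  /-- the collapse -/
  q : Z ⟶ ((L⟦(1 : ℤ)⟧) ⊗ (L⟦(1 : ℤ)⟧) ⊗ X)⟦(1 : ℤ)⟧⟦(1 : ℤ)⟧
  tr : Triangle.mk ψ e q ∈ distTriang T
  /-- the map to the two-skeleton -/
  κ : Z ⟶ P.D2
  eκ : e ≫ κ = (i ⊗ₘ i ⊗ₘ 𝟙 X) ≫ P.i1 ≫ P.i2
  κj : κ ≫ P.j2 = q ≫ a⟦(1 : ℤ)⟧'⟦(1 : ℤ)⟧'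

/-- Steps 2 to 4. -/
theorem exists_kap (H : Low T) {L X : T} {i : L ⟶ X} {δ : X ⟶ L⟦(1 : ℤ)⟧} (hX : Moo i δ) {n : ℤ}
    (hL : Sph L n) (hb : Br L 1) (P : Orb (X ⊗ X ⊗ X) (rot X X X)) : Nonempty (Kap P i δ) := by
  obtain ⟨a, h1, h2⟩ := exists_top H hX hL hb
  obtain ⟨φ, hφ⟩ : ∃ φ : _ ⟶ X ⊗ X ⊗ X, a⟦(1 : ℤ)⟧' ≫ P.bd = φ ≫ P.i1 :=
    Triangle.coyoneda_exact₂ _ P.tr1 (a⟦(1 : ℤ)⟧' ≫ P.bd) (by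
      change (a⟦(1 : ℤ)⟧' ≫ P.bd) ≫ P.j1 = 0
      rw [Category.assoc, P.nrm, nrm_eq, ← Functor.map_comp_assoc, h2, Functor.map_zero,
        zero_comp])
  obtain ⟨ψ₁, ψ₂, ψ₃, h3⟩ := exists_three H hX hL φ
  have h5 : (i ⊗ₘ 𝟙 X ⊗ₘ i) ≫ P.i1 = rot L X L ≫ (i ⊗ₘ i ⊗ₘ 𝟙 X) ≫ P.i1 := by
    rw [← Category.assoc, ← rot_natural, Category.assoc, P.rot]
  have h6 : (𝟙 X ⊗ₘ i ⊗ₘ i) ≫ P.i1 = rot X L L ≫ rot L X L ≫ (i ⊗ₘ i ⊗ₘ 𝟙 X) ≫ P.i1 := by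
    rw [← h5, ← Category.assoc, ← rot_natural, Category.assoc, P.rot]
  obtain ⟨Z, e, q, hZ⟩ := distinguished_cocone_triangle
    (ψ₁ ≫ rot X L L ≫ rot L X L + ψ₂ ≫ rot L X L + ψ₃)
  obtain ⟨κ, h7, h8⟩ := complete_distinguished_triangle_morphism _ _ hZ P.tr2 (a⟦(1 : ℤ)⟧')
    ((i ⊗ₘ i ⊗ₘ 𝟙 X) ≫ P.i1) (by
      change (ψ₁ ≫ rot X L L ≫ rot L X L + ψ₂ ≫ rot L X L + ψ₃) ≫ (i ⊗ₘ i ⊗ₘ 𝟙 X) ≫ P.i1 =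
        a⟦(1 : ℤ)⟧' ≫ P.bd
      rw [hφ, h3]
      simp only [Preadditive.add_comp, Category.assoc]
      rw [h5, h6])
  exact ⟨⟨a, h1, _, Z, e, q, hZ, κ, h7.trans (Category.assoc _ _ _), h8.symm⟩⟩

section Cyc

variable {L X Y C Z : T} {i : L ⟶ X} {δ : X ⟶ L⟦(1 : ℤ)⟧} {f : X ⟶ Y} {e : Y ⟶ C} {p : C ⟶ Z}
  (K : Cyc3 f e p) (κ : Kap K.PX i δ)

/-- The map `F κ` from the cone to the third power of the target. -/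
def Kap.F : κ.Z ⟶ Y ⊗ Y ⊗ Y := κ.κ ≫ K.mf.m2 ≫ K.r

/-- On the bottom Moore object `F κ` is `θ ⊗ θ ⊗ f`, `θ = i ≫ f`. -/
lemma Kap.e_F : κ.e ≫ Kap.F K κ = ((i ≫ f) ⊗ₘ (i ≫ f) ⊗ₘ f) := by
  rw [Kap.F, reassoc_of% κ.eκ, reassoc_of% K.mf.i2, reassoc_of% K.mf.i1, K.ret, Category.comp_id,
    tensorHom_comp_tensorHom, tensorHom_comp_tensorHom, Category.id_comp]

end Cyc

end Vale.Agent.P236R
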