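import Vale.Agent.P236R.Asm
import Vale.Agent.P236E.Snd

/-!
# P236, block ORD: the vanishing of the product from the tables

`chkO`: the words which kill the class `x` of the cell `(1, 27)` have a joint kernel on the cell
`(5, 81)` which is spanned by a class `k`.  If `D5 k ≠ 0`, then `x (β x) ^ 2 = 0`.
-/

open CategoryTheory MonoidalCategory Limits Pretriangulated

universe u

namespace Vale.Agent.P236E

open Vale.Agent.P236K Vale.Agent.P236H Vale.Agent.P236R

/-- The permanent cycle over `b_2` and the vanishing of a product. -/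
def SS.OutO (S : SS) : Prop :=
  ∃ x ∈ S.P 1 (3 ^ (2 + 1)), S.β x ∈ S.Ld 2 ∧ S.mul x (S.mul (S.β x) (S.β x)) = 0

/-- Vectors which span the joint kernel of some functionals of products. -/
noncomputable def Orc.cutW (O : Orc) (cs : List (Mx × ℕ)) : List (List ℕ) :=
  List.rec (units (O.dim 5 81))
    (fun c _ ih => cut1 (fun v => ddot (ul c.2) (O.act c.1 5 81 v)) ih) cs

/-- The check. -/
noncomputable def Orc.chkO (O : Orc) (x k : ℕ) (cs : List (Mx × ℕ)) : Bool :=
  band (O.isLd 2 27 x) (band (O.okc 5 81)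
    (band (allL (fun c => band (O.ok (Nat.add (O.dS c.1) 1) (Nat.add (O.dT c.1) 27))
        (vz (O.act c.1 1 27 (O.ux 1 27 x)))) cs)
      (allL (fun v => bor (veq v (O.ux 5 81 k)) (veq (vneg v) (O.ux 5 81 k))) (O.cutW cs))))

theorem CrdO.outO {O : Orc} {S : SS} (C : CrdO O S) {x k : ℕ} {cs : List (Mx × ℕ)}
    (h : O.chkO x k cs = true) (hp : C.vx 1 27 x ∈ S.P 1 27) (hk : S.D5 (C.vx 5 81 k) ≠ 0) :
    S.OutO := by
  simp only [Orc.chkO, band_iff] at h
  obtain ⟨h1, h2, h3, h4⟩ := h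
  obtain ⟨-, h5, h6⟩ := C.isLd_sound (j := 2) h1
  refine ⟨C.vx 1 27 x, hp, h6, ?_⟩
  have hX := C.vx_mem 1 27 x
  have hb : S.mul (S.β (C.vx 1 27 x)) (S.β (C.vx 1 27 x)) ∈ S.P 4 54 :=
    S.P_mul (S.P_β hp) (S.P_β hp)
  have hy : S.mul (C.vx 1 27 x) (S.mul (S.β (C.vx 1 27 x)) (S.β (C.vx 1 27 x))) ∈ S.P 5 81 :=
    S.P_mul hp hb
  generalize S.mul (S.β (C.vx 1 27 x)) (S.β (C.vx 1 27 x)) = b at hb hy ⊢
  have ok := (Orc.okc_iff.1 h2).1
  have key : ∀ l : List (Mx × ℕ), (∀ c ∈ l, c ∈ cs) →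
      C.Inv 5 81 (Submodule.span F {S.mul (C.vx 1 27 x) b}) (O.cutW l) := fun l hl => by
    induction l with
    | nil => exact C.inv_units ok ((Submodule.span_singleton_le_iff_mem _ _).2 (S.P_le hy))
    | cons c l ih =>
      obtain ⟨h7, h8⟩ := band_iff.1 (allL_sound h3 (hl c List.mem_cons_self))
      have h9 := C.inj h7 (S.mul_mem (C.den_mem c.1) hX)
        (vz_sound (C.ap_act c.1 hX (C.ap_vx h5 x)) h8)
      refine (ih fun d hd => hl d (List.mem_cons_of_mem _ hd)).cut1 C ok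
        ((lam (ul c.2)).comp ((C.co (O.dS c.1 + 5) (O.dT c.1 + 81)).comp (S.mul (C.den c.1))))
        (fun Y hY => ?_) fun Y hY v hv => dg_ddot _ (C.ap_act c.1 hY hv)
      obtain ⟨a, rfl⟩ := Submodule.mem_span_singleton.1 hY
      rw [map_smul, LinearMap.comp_apply, LinearMap.comp_apply,
        ← S.mul_assoc (C.den_mem c.1) hX (S.P_le hb), h9, map_zero, LinearMap.zero_apply, map_zero,
        map_zero, smul_zero]
  have h7 : Submodule.span F (C.Ds 5 81 (O.cutW cs)) ≤ Submodule.span F {C.vx 5 81 k} := by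
    rw [Submodule.span_le]
    rintro Y ⟨hY, v, hv, ha⟩
    rcases bor_iff.1 (allL_sound h4 hv) with e | e
    · rw [C.eq_vx h2 hY ha e]
      exact Submodule.mem_span_singleton_self _
    · rw [← neg_neg Y, C.eq_vx h2 (neg_mem hY) (by rw [map_neg]; exact ha.neg) e]
      exact neg_mem (Submodule.mem_span_singleton_self _)
  obtain ⟨a, ha⟩ := Submodule.mem_span_singleton.1
    (h7 ((key cs fun _ h => h).2 (Submodule.mem_span_singleton_self _)))
  have h8 := S.P_D5 hy
  rw [← ha, map_smul, smul_eq_zero] at h8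
  rw [← ha, h8.resolve_right hk, zero_smul]

lemma CrdO.ne_of {O : Orc} {S : SS} (C : CrdO O S) {s T k m : ℕ} {b : Bool}
    (ok : O.okc s T = true)
    (h : C.FH (.eqf (fadd (LE false s T (O.ux s T k) (ul m)) (.cons 0 b .nil)))) :
    S.D5 (C.vx s T k) ≠ 0 := fun h0 => by
  have h3 : ev C.val (fadd (LE false s T (O.ux s T k) (ul m)) (.cons 0 b .nil)) = 0 := h
  rw [ev_fadd, C.ev_LE _ ok _ (length_ul m), C.fnl_apply, show S.D false _ = 0 from h0, map_zero,
    map_zero, zero_add] at h3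
  cases b
  · rw [ev_false, C.val_zero, ev_nil] at h3
    exact absurd h3 (by decide)
  · rw [ev_true, C.val_zero, ev_nil] at h3
    exact absurd h3 (by decide)

theorem outO_of {O : Orc} {s T x l s' T' x' l' : ℕ} {outs : List Fact}
    (h : O.Imp [.ne false s T x l, .ne true s' T' x' l'] outs) {y k m : ℕ} {b : Bool}
    {cs : List (Mx × ℕ)} (hc : O.chkO y k cs = true) (hp : .perm 1 27 y ∈ outs)
    (hk : .eqf (fadd (LE false 5 81 (O.ux 5 81 k) (ul m)) (.cons 0 b .nil)) ∈ outs)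
    {S : SS} (C : CrdO O S) (hH : S.High) : S.OutO := by
  obtain ⟨a, a', ha, ha', h1⟩ := exists_sc C s T x l s' T' x' l'
  have h2 := h (S.sc a a' ha ha') (C.sc ha ha') hH h1
  have ok : O.okc 5 81 = true := by
    simp only [Orc.chkO, band_iff] at hc
    exact hc.2.1
  obtain ⟨z, h3, h4, h5⟩ := (C.sc ha ha').outO hc (h2 _ hp) ((C.sc ha ha').ne_of ok (h2 _ hk))
  exact ⟨z, h3, h4, h5⟩

open Vale.Agent.P251 Vale.Agent.P251.T Vale.Agent.P251.I Vale.Agent.P251.M Vale.Agent.P236L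
  Vale.Agent.P236S

theorem always_outO {τ : Tab} (R : Real τ) (h : Eng τ fun S => S.OutO) :
    Always fun _ D U _ i => EngOutO D U i := fun _ Φ _ D _ U V i _ hC => by
  have hS : Seed D U V 3 := seed_moore Φ (by norm_num) hC
  obtain ⟨m, hm⟩ := exists_mul hC hS.kil
  obtain ⟨t, ht⟩ := P251.F.T1 3
  obtain ⟨C⟩ := top_crd hC hm hS ht R
  obtain ⟨x, hx, hl, h0⟩ := h _ C (top_high hC hm hS ht)
  obtain ⟨z, hz, rfl⟩ := mem_PP.1 hx
  obtain ⟨y, hy⟩ := exists_bk z
  refine ⟨z.1, y.1, hy, hz, lead_of (bk_cl hy ▸ hl), ?_⟩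
  have h1 : mul (cl _ _ z) (mul (bk (cl _ _ z)) (bk (cl _ _ z))) = 0 := h0
  rw [bk_cl hy, mul_cl (s' := 4) (T' := 54) rfl rfl, mul_cl (s' := 5) (T' := 81) rfl rfl] at h1
  exact cl_eq_zero.1 h1

/-- The final statement with order three from the tables and a certificate. -/
theorem fin_three_of_imp (hK : ∀ T : P251.St.SHCat, P236G.GeoStmt T.C)
    (hA : Always fun _ D U _ i => OrdA D U i) (hC : Always fun _ D U _ _ => OrdC D U)
    {τ₀ : Tab} (R : Real τ₀) {O : Orc}
    (hO : ∀ S : SS, Crd τ₀ S → Nonempty (CrdO O S)) {s T x l s' T' x' l' : ℕ} {outs : List Fact}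
    (h : O.Imp [.ne false s T x l, .ne true s' T' x' l'] outs) (h8 : .goal 8 ∈ outs)
    (h7 : .goal 7 ∈ outs) {y k m : ℕ} {b : Bool}
    {cs : List (Mx × ℕ)} (hc : O.chkO y k cs = true) (hp : .perm 1 27 y ∈ outs)
    (hk : .eqf (fadd (LE false 5 81 (O.ux 5 81 k) (ul m)) (.cons 0 b .nil)) ∈ outs) : FIN 3 :=
  fin_three hK hA hC
    (always_out1 R fun S C hH => (hO S C).elim fun C' => goals_of h C' hH h8)
    (always_outO R fun S C hH => (hO S C).elim fun C' => outO_of h hc hp hk C' hH)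
    (always_out R fun S C hH => (hO S C).elim fun C' => goals_of h C' hH h7)

end Vale.Agent.P236E
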