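import Vale.Agent.P236R.Cube

/-!
# P236, block ORD: maps out of and into Moore objects

`Moo L X i δ`: the triangle `L -3→ L -i→ X -δ→ L⟦1⟧` is distinguished.
`Low T`: `π₀` and `π₁` of the unit have no `3`-torsion, `π₁` and `π₂` are `3`-divisible.
-/

open CategoryTheory MonoidalCategory Limits Pretriangulated

set_option linter.unusedSectionVars false

universe v u

namespace Vale.Agent.P236R

open Vale.Agent.P251.T Vale.Agent.P251.S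

variable {T : Type u} [Category.{v} T] [Preadditive T] [HasZeroObject T] [HasShift T ℤ]
  [∀ n : ℤ, (shiftFunctor T n).Additive] [Pretriangulated T]

/-- `X` is the cone of `3` on `L`. -/
abbrev Moo {L X : T} (i : L ⟶ X) (δ : X ⟶ L⟦(1 : ℤ)⟧) : Prop :=
  Triangle.mk ((3 : ℤ) • 𝟙 L) i δ ∈ distTriang T

/-- All maps `A ⟶ B` vanish. -/
def Zr (A B : T) : Prop := ∀ f : A ⟶ B, f = 0

/-- No `3`-torsion in `Hom (A, B)`. -/
def TF (A B : T) : Prop := ∀ f : A ⟶ B, (3 : ℤ) • f = 0 → f = 0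

/-- `Hom (A, B)` is `3`-divisible. -/
def DV (A B : T) : Prop := ∀ f : A ⟶ B, ∃ g : A ⟶ B, f = (3 : ℤ) • g

lemma Zr.iso {A B A' B' : T} (h : Zr A B) (a : A ≅ A') (b : B ≅ B') : Zr A' B' := fun f => by
  have h1 := h (a.hom ≫ f ≫ b.inv)
  rwa [Preadditive.IsIso.comp_left_eq_zero, Preadditive.IsIso.comp_right_eq_zero] at h1

lemma Zr.shift {A B : T} (h : Zr A B) (k : ℤ) : Zr (A⟦k⟧) (B⟦k⟧) := fun f => by
  obtain ⟨g, rfl⟩ := (shiftFunctor T k).map_surjective f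
  rw [h g, Functor.map_zero]

lemma TF.iso {A B A' B' : T} (h : TF A B) (a : A ≅ A') (b : B ≅ B') : TF A' B' := fun f hf => by
  have h1 := h (a.hom ≫ f ≫ b.inv) (by
    rw [← Preadditive.comp_zsmul, ← Preadditive.zsmul_comp, hf, zero_comp, comp_zero])
  rwa [Preadditive.IsIso.comp_left_eq_zero, Preadditive.IsIso.comp_right_eq_zero] at h1

lemma TF.shift {A B : T} (h : TF A B) (k : ℤ) : TF (A⟦k⟧) (B⟦k⟧) := fun f hf => by
  obtain ⟨g, rfl⟩ := (shiftFunctor T k).map_surjective f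
  rw [h g ((shiftFunctor T k).map_injective (by
    rw [Functor.map_zsmul, hf, Functor.map_zero])), Functor.map_zero]

lemma DV.iso {A B A' B' : T} (h : DV A B) (a : A ≅ A') (b : B ≅ B') : DV A' B' := fun f => by
  obtain ⟨g, hg⟩ := h (a.hom ≫ f ≫ b.inv)
  refine ⟨a.inv ≫ g ≫ b.hom, ?_⟩
  rw [← Preadditive.comp_zsmul, ← Preadditive.zsmul_comp, ← hg]
  simp

lemma DV.shift {A B : T} (h : DV A B) (k : ℤ) : DV (A⟦k⟧) (B⟦k⟧) := fun f => by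
  obtain ⟨g, rfl⟩ := (shiftFunctor T k).map_surjective f
  obtain ⟨g', rfl⟩ := h g
  exact ⟨_, Functor.map_zsmul _⟩

section Moore

variable {L X : T} {i : L ⟶ X} {δ : X ⟶ L⟦(1 : ℤ)⟧} (hX : Moo i δ)

include hX

lemma Moo.smul_i : (3 : ℤ) • i = 0 := by
  have h : ((3 : ℤ) • 𝟙 L) ≫ i = 0 := comp_distTriang_mor_zero₁₂ _ hX
  rwa [Preadditive.zsmul_comp, Category.id_comp] at h

@[reassoc]
lemma Moo.i_δ : i ≫ δ = 0 := comp_distTriang_mor_zero₂₃ _ hX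

lemma Moo.smul_δ : (3 : ℤ) • δ = 0 := by
  have h : δ ≫ ((3 : ℤ) • 𝟙 L)⟦(1 : ℤ)⟧' = 0 := comp_distTriang_mor_zero₃₁ _ hX
  rwa [Functor.map_zsmul, CategoryTheory.Functor.map_id, Preadditive.comp_zsmul,
    Category.comp_id] at h

/-- The image of a Moore object under a triangulated functor. -/
lemma Moo.map (F : T ⥤ T) [F.CommShift ℤ] [F.IsTriangulated] :
    Moo (F.map i) (F.map δ ≫ (F.commShiftIso (1 : ℤ)).hom.app L) := by
  have h := F.map_distinguished _ hX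
  have e : F.map ((3 : ℤ) • 𝟙 L) = (3 : ℤ) • 𝟙 (F.obj L) := by
    rw [Functor.map_zsmul, CategoryTheory.Functor.map_id]
  rw [Moo, ← e]
  exact h

lemma Moo.lift_i' {W : T} (φ : W ⟶ X) (h : φ ≫ δ = 0) : ∃ ψ : W ⟶ L, φ = ψ ≫ i :=
  Triangle.coyoneda_exact₃ _ hX φ h

lemma Moo.lift_δ' {W : T} (y : W ⟶ L⟦(1 : ℤ)⟧) (h : (3 : ℤ) • y = 0) : ∃ ψ : W ⟶ X, y = ψ ≫ δ :=
  Triangle.coyoneda_exact₁ _ hX y (by
    change y ≫ ((3 : ℤ) • 𝟙 L)⟦(1 : ℤ)⟧' = 0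
    rw [Functor.map_zsmul, CategoryTheory.Functor.map_id, Preadditive.comp_zsmul,
      Category.comp_id, h])

lemma Moo.lift_i (F : T ⥤ T) [F.CommShift ℤ] [F.IsTriangulated] {W : T} (φ : W ⟶ F.obj X)
    (h : φ ≫ F.map δ = 0) : ∃ ψ : W ⟶ F.obj L, φ = ψ ≫ F.map i :=
  (hX.map F).lift_i' φ (by rw [reassoc_of% h, zero_comp])

lemma Moo.lift_δ (F : T ⥤ T) [F.CommShift ℤ] [F.IsTriangulated] {W : T}
    (y : W ⟶ F.obj (L⟦(1 : ℤ)⟧)) (h : (3 : ℤ) • y = 0) : ∃ ψ : W ⟶ F.obj X, y = ψ ≫ F.map δ := by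
  obtain ⟨ψ, hψ⟩ := (hX.map F).lift_δ' (y ≫ (F.commShiftIso (1 : ℤ)).hom.app L) (by
    rw [← Preadditive.zsmul_comp, h, zero_comp])
  exact ⟨ψ, by rwa [← Category.assoc, cancel_mono] at hψ⟩

/-- Maps into a Moore object. -/
lemma Moo.zr_into (F : T ⥤ T) [F.CommShift ℤ] [F.IsTriangulated] {W : T}
    (h0 : Zr W (F.obj L)) (h1 : Zr W (F.obj (L⟦(1 : ℤ)⟧))) : Zr W (F.obj X) := fun f => by
  obtain ⟨g, rfl⟩ := hX.lift_i F f (h1 _)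
  rw [h0 g, zero_comp]

/-- Maps out of a Moore object. -/
lemma Moo.zr_out {Y : T} (h0 : TF L Y) (h1 : DV (L⟦(1 : ℤ)⟧) Y) : Zr X Y := fun f => by
  obtain ⟨g, hg⟩ : ∃ g : L⟦(1 : ℤ)⟧ ⟶ Y, f = δ ≫ g :=
    Triangle.yoneda_exact₃ _ hX f (h0 (i ≫ f) (by
      rw [← Preadditive.zsmul_comp, hX.smul_i, zero_comp]))
  obtain ⟨g', rfl⟩ := h1 g
  rw [hg, Preadditive.comp_zsmul, ← Preadditive.zsmul_comp, hX.smul_δ, zero_comp]

/-- Maps from an object into a Moore object. -/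
lemma Moo.zr_in {W : T} (h0 : DV W L) (h1 : TF W (L⟦(1 : ℤ)⟧)) : Zr W X := fun f => by
  obtain ⟨g, rfl⟩ := hX.lift_i' f (h1 _ (by
    rw [← Preadditive.comp_zsmul, hX.smul_δ, comp_zero]))
  obtain ⟨g', rfl⟩ := h0 g
  rw [Preadditive.zsmul_comp, ← Preadditive.comp_zsmul, hX.smul_i, comp_zero]

lemma Moo.smul_id (h : Zr (L⟦(1 : ℤ)⟧) X) : (3 : ℤ) • 𝟙 X = 0 := by
  obtain ⟨g, hg⟩ : ∃ g : L⟦(1 : ℤ)⟧ ⟶ X, (3 : ℤ) • 𝟙 X = δ ≫ g :=
    Triangle.yoneda_exact₃ _ hX _ (by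
      change i ≫ ((3 : ℤ) • 𝟙 X) = 0
      rw [Preadditive.comp_zsmul, Category.comp_id, hX.smul_i])
  rw [hg, h g, comp_zero]

end Moore

variable [MonoidalCategory T] [SymmetricCategory T] [TensorTriangulated T]

variable (T) in
/-- The low homotopy groups of the unit at the prime three. -/
structure Low : Prop where
  tf0 : TF ((𝟙_ T)⟦(0 : ℤ)⟧) (𝟙_ T)
  tf1 : TF ((𝟙_ T)⟦(1 : ℤ)⟧) (𝟙_ T)
  dv1 : DV ((𝟙_ T)⟦(1 : ℤ)⟧) (𝟙_ T)
  dv2 : DV ((𝟙_ T)⟦(2 : ℤ)⟧) (𝟙_ T)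

/-- `Low T` holds if `π₁ V = π₂ V = 0`. -/
theorem low_of {V : T} {i : 𝟙_ T ⟶ V} {δ : V ⟶ (𝟙_ T)⟦(1 : ℤ)⟧} (hV : Moo i δ)
    (hπ : ∀ j : ℤ, 1 ≤ j → j ≤ 2 → ∀ f : (𝟙_ T)⟦j⟧ ⟶ V, f = 0) : Low T := by
  have tf : ∀ k : ℤ, 0 ≤ k → k ≤ 1 → TF ((𝟙_ T)⟦k⟧) (𝟙_ T) := fun k h0 h1 x hx => by
    obtain ⟨g, hg⟩ := hV.lift_δ' (sh k 1 (k + 1) rfl x) (by rw [← map_zsmul, hx, map_zero])
    rw [hπ (k + 1) (by omega) (by omega) g, zero_comp] at hg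
    exact (map_eq_zero_iff _ (sh k 1 (k + 1) rfl).injective).1 hg
  have dv : ∀ k : ℤ, 1 ≤ k → k ≤ 2 → DV ((𝟙_ T)⟦k⟧) (𝟙_ T) := fun k h0 h1 x => by
    obtain ⟨g, hg⟩ : ∃ g : (𝟙_ T)⟦k⟧ ⟶ 𝟙_ T, x = g ≫ ((3 : ℤ) • 𝟙 (𝟙_ T)) :=
      Triangle.coyoneda_exact₂ _ hV x (hπ k h0 h1 _)
    exact ⟨g, by rw [hg, Preadditive.comp_zsmul, Category.comp_id]⟩
  exact ⟨tf 0 le_rfl (by norm_num), tf 1 (by norm_num) le_rfl, dv 1 le_rfl (by norm_num),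
    dv 2 (by norm_num) le_rfl⟩

namespace Low

variable (H : Low T)

include H

lemma tf {A B : T} {a b : ℤ} (hA : Sph A a) (hB : Sph B b) (h : a = b ∨ a = b + 1) : TF A B := by
  rcases h with h | h
  · exact (H.tf0.shift b).iso (((sph_self 0).shift b (by omega)).nonempty_iso hA).some
      hB.some.symm
  · exact (H.tf1.shift b).iso (((sph_self 1).shift b (by omega)).nonempty_iso hA).some
      hB.some.symm

lemma dv {A B : T} {a b : ℤ} (hA : Sph A a) (hB : Sph B b) (h : a = b + 1 ∨ a = b + 2) :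
    DV A B := by
  rcases h with h | h
  · exact (H.dv1.shift b).iso (((sph_self 1).shift b (by omega)).nonempty_iso hA).some
      hB.some.symm
  · exact (H.dv2.shift b).iso (((sph_self 2).shift b (by omega)).nonempty_iso hA).some
      hB.some.symm

variable {L X : T} {i : L ⟶ X} {δ : X ⟶ L⟦(1 : ℤ)⟧} (hX : Moo i δ) {n : ℤ} (hL : Sph L n)

include hX hL

/-- Maps from a Moore object to a sphere. -/
lemma zr {Y : T} {b : ℤ} (hY : Sph Y b) (h : n = b ∨ n = b + 1) : Zr X Y :=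
  hX.zr_out (H.tf hL hY h) (H.dv (hL.shift 1 rfl) hY (by omega))

lemma zr_shift {Y : T} {b : ℤ} (hY : Sph Y b) (h : n + 1 = b ∨ n = b) : Zr (X⟦(1 : ℤ)⟧) Y :=
  ((H.zr hX hL (sph_self (b - 1)) (by omega)).shift 1).iso (Iso.refl _)
    (((sph_self (b - 1)).shift 1 (by omega)).nonempty_iso hY).some

/-- Maps from a sphere to a Moore object. -/
lemma zr_in {Y : T} {b : ℤ} (hY : Sph Y b) (h : b = n + 1 ∨ b = n + 2) : Zr Y X :=
  hX.zr_in (H.dv hY hL h) (H.tf hY (hL.shift 1 rfl) (by omega))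

lemma smul_id : (3 : ℤ) • 𝟙 X = 0 :=
  hX.smul_id (H.zr_in hX hL (hL.shift 1 rfl) (Or.inl rfl))

end Low

end Vale.Agent.P236R
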